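import Vale.Agent.P198V50.Ext

/-!
# The Morse lemma; slim triangles are a quasi-isometry invariant of geodesic spaces
-/

set_option linter.all false

namespace Vale.Agent.P186M44

open Set Metric Filter Topology Vale.Agent.P198V

variable {X Y : Type} [MetricSpace X] [MetricSpace Y] {x y z p : X} {A B C : Set X} {δ L : ℝ}
  {c : ℝ → X} {l : ℝ}

/-- `A` is a geodesic segment from `x` to `y` -/
def Sg (x y : X) (A : Set X) : Prop := ∃ c l, IsSeg c l x y ∧ A = c '' Icc 0 l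

theorem Sg.symm (h : Sg x y A) : Sg y x A := by
  obtain ⟨c, l, h, rfl⟩ := h
  refine ⟨fun t => c (l - t), l, ⟨h.nonneg, by simp [h.stop], by simp [h.start],
    fun s hs t ht => ?_⟩, ?_⟩
  · rw [h.iso _ ⟨by linarith [hs.2], by linarith [hs.1]⟩ _ ⟨by linarith [ht.2], by linarith [ht.1]⟩,
      sub_sub_sub_cancel_left, abs_sub_comm]
  · rw [← image_image c fun t => l - t, image_const_sub_Icc, sub_self, sub_zero]

theorem Sg.le (h : Sg x y A) (hp : p ∈ A) : dist x p ≤ dist x y := by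
  obtain ⟨c, l, h, rfl⟩ := h
  obtain ⟨s, hs, rfl⟩ := hp
  have h0 : (0 : ℝ) ∈ Icc 0 l := ⟨le_rfl, h.nonneg⟩
  rw [← h.stop, ← h.start, h.iso 0 h0 s hs, h.iso 0 h0 l ⟨h.nonneg, le_rfl⟩, zero_sub, zero_sub,
    abs_neg, abs_neg, abs_of_nonneg hs.1, abs_of_nonneg h.nonneg]
  exact hs.2

theorem sg_sub (h : IsSeg c l x y) {s t u : ℝ} (hs : s ∈ Icc 0 l) (hu : u ∈ Icc 0 l) (h1 : s ≤ t)
    (h2 : t ≤ u) : ∃ A, Sg (c s) (c u) A ∧ c t ∈ A :=
  ⟨_, ⟨fun r => c (s + r), u - s, ⟨by linarith, by simp, by simp, fun a ha b hb => by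
    rw [h.iso _ ⟨by linarith [hs.1, ha.1], by linarith [hu.2, ha.2]⟩ _
      ⟨by linarith [hs.1, hb.1], by linarith [hu.2, hb.2]⟩, add_sub_add_left_eq_sub]⟩, rfl⟩,
    t - s, ⟨by linarith, by linarith⟩, by simp⟩

theorem seg_cont (h : IsSeg c l x y) : ContinuousOn c (Icc 0 l) :=
  (LipschitzOnWith.of_dist_le_mul (K := 1) fun s hs t ht => by
    rw [h.iso s hs t ht, NNReal.coe_one, one_mul, Real.dist_eq]).continuousOn

theorem slim_sg (hδ : Slim X δ) (h1 : Sg x y A) (h2 : Sg y z B) (h3 : Sg z x C) (hp : p ∈ A) :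
    ∃ w ∈ B ∪ C, dist p w ≤ δ := by
  obtain ⟨a, l, h1, rfl⟩ := h1
  obtain ⟨b, m, h2, rfl⟩ := h2
  obtain ⟨c, n, h3, rfl⟩ := h3
  obtain ⟨s, hs, rfl⟩ := hp
  exact hδ _ _ _ _ _ _ _ _ _ h1 h2 h3 s hs

section morse

variable (hg : ∀ x y : X, ∃ A, Sg x y A) (hδ : Slim X δ) (h0 : 0 ≤ δ) (hL : 0 ≤ L)
include hg hδ

/-- geodesics stay at logarithmic distance from paths -/
theorem logb {a : ℕ → X} (ha : ∀ i, dist (a i) (a (i + 1)) ≤ L) (hL : 0 ≤ L) (k : ℕ) :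
    ∀ i j, i ≤ j → j ≤ i + 2 ^ k → ∀ A, Sg (a i) (a j) A → ∀ p ∈ A,
      ∃ m, i ≤ m ∧ m ≤ j ∧ dist p (a m) ≤ δ * k + L := by
  induction k with
  | zero =>
    intro i j h1 h2 A hA p hp
    refine ⟨i, le_rfl, h1, ?_⟩
    rw [dist_comm, Nat.cast_zero, mul_zero, zero_add]
    refine (hA.le hp).trans ?_
    obtain rfl | rfl : j = i ∨ j = i + 1 := by omega
    · rwa [dist_self]
    · exact ha i
  | succ k ih =>
    intro i j h1 h2 A hA p hp
    obtain ⟨B, hB⟩ := hg (a j) (a (min j (i + 2 ^ k)))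
    obtain ⟨C, hC⟩ := hg (a (min j (i + 2 ^ k))) (a i)
    obtain ⟨w, hw, e⟩ := slim_sg hδ hA hB hC hp
    have k2 : 2 ^ (k + 1) = 2 ^ k + 2 ^ k := by ring
    have : ∃ m, i ≤ m ∧ m ≤ j ∧ dist w (a m) ≤ δ * k + L := by
      rcases hw with hw | hw
      · obtain ⟨m, m1, m2, m3⟩ := ih _ _ (min_le_left _ _) (by omega) B hB.symm w hw
        exact ⟨m, by omega, m2, m3⟩
      · obtain ⟨m, m1, m2, m3⟩ := ih _ _ (by omega) (min_le_right _ _) C hC.symm w hw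
        exact ⟨m, m1, by omega, m3⟩
    obtain ⟨m, m1, m2, m3⟩ := this
    refine ⟨m, m1, m2, (dist_triangle p w _).trans ?_⟩
    push_cast
    linarith

omit hg hδ in
theorem exp_big (a b : ℝ) : ∃ K : ℕ, ∀ k ≥ K, a * k + b ≤ (2 : ℝ) ^ k := by
  have h := ((tendsto_pow_const_div_const_pow_of_one_lt 1 (one_lt_two (α := ℝ))).const_mul a).add
    ((tendsto_pow_const_div_const_pow_of_one_lt 0 (one_lt_two (α := ℝ))).const_mul b)
  rw [mul_zero, mul_zero, add_zero] at h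
  obtain ⟨K, hK⟩ := eventually_atTop.1 (h.eventually (ge_mem_nhds one_pos))
  refine ⟨K, fun k hk => ?_⟩
  have h1 := hK k hk
  have h2 : (0 : ℝ) < 2 ^ k := by positivity
  rwa [pow_one, pow_zero, ← mul_div_assoc, ← mul_div_assoc, ← add_div, div_le_one h2,
    mul_one] at h1

include h0 hL

/-- **the Morse lemma**, first half -/
theorem morse1 : ∃ D : ℝ, 0 ≤ D ∧ ∀ (a : ℕ → X) (N : ℕ), (∀ i, dist (a i) (a (i + 1)) ≤ L) →
    (∀ i j : ℕ, i ≤ j → j ≤ N → (j : ℝ) - i ≤ L * dist (a i) (a j) + L) →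
    ∀ A, Sg (a 0) (a N) A → ∀ p ∈ A, ∃ m ≤ N, dist p (a m) ≤ D := by
  obtain ⟨K, hK⟩ := exp_big (6 * L * δ) (6 * L * (3 * δ + L) + L)
  refine ⟨2 * δ + L + δ * K, by positivity, ?_⟩
  rintro a N ha hq _ ⟨c, l, h, rfl⟩
  have hT : IsCompact (a '' Iic N) := ((finite_Iic N).image a).isCompact
  have hne : (a '' Iic N).Nonempty := ⟨_, 0, Nat.zero_le N, rfl⟩
  obtain ⟨_, ⟨s0, hs0, rfl⟩, hm⟩ := (isCompact_Icc.image_of_continuousOn (seg_cont h)).exists_isMaxOn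
    ⟨_, 0, ⟨le_rfl, h.nonneg⟩, rfl⟩ (continuous_infDist_pt (a '' Iic N)).continuousOn
  obtain ⟨E, hE⟩ : ∃ E, E = infDist (c s0) (a '' Iic N) := ⟨_, rfl⟩
  have E0 : 0 ≤ E := hE ▸ infDist_nonneg
  have hall : ∀ m ≤ N, E ≤ dist (c s0) (a m) := fun m hm =>
    hE ▸ infDist_le_dist_of_mem ⟨m, hm, rfl⟩
  have hcl : ∀ q ∈ c '' Icc 0 l, ∃ m ≤ N, dist q (a m) ≤ E := fun q hq => by
    obtain ⟨_, ⟨m, m1, rfl⟩, m2⟩ := hT.exists_infDist_eq_dist hne q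
    exact ⟨m, m1, by rw [← m2, hE]; exact hm hq⟩
  have side : ∀ s ∈ Icc 0 l, (|s0 - s| = 2 * E ∨ ∃ i ≤ N, c s = a i) → ∃ i ≤ N,
      dist (c s) (a i) ≤ E ∧ ∀ B, Sg (c s) (a i) B → ∀ w ∈ B, E ≤ dist (c s0) w := by
    rintro s hs (e | ⟨i, hi, e⟩)
    · obtain ⟨i, hi, k⟩ := hcl _ ⟨s, hs, rfl⟩
      refine ⟨i, hi, k, fun B hB w hw => ?_⟩
      have k1 := hB.le hw
      have k2 := dist_triangle_right (c s0) (c s) w
      rw [h.iso _ hs0 _ hs, e] at k2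
      linarith
    · refine ⟨i, hi, by rwa [e, dist_self], fun B hB w hw => ?_⟩
      have k1 := hB.le hw
      rw [e, dist_self, dist_le_zero] at k1
      exact k1 ▸ hall i hi
  have m1 : max 0 (s0 - 2 * E) ∈ Icc 0 l := ⟨le_max_left _ _, max_le h.nonneg (by linarith [hs0.2])⟩
  have m2 : min l (s0 + 2 * E) ∈ Icc 0 l := ⟨le_min h.nonneg (by linarith [hs0.1]), min_le_left _ _⟩
  have n1 : max 0 (s0 - 2 * E) ≤ s0 := max_le hs0.1 (by linarith)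
  have n2 : s0 ≤ min l (s0 + 2 * E) := le_min hs0.2 (by linarith)
  obtain ⟨i, hi, i1, i2⟩ := side _ m1 (by
    rcases le_total 0 (s0 - 2 * E) with e | e
    · exact .inl (by rw [max_eq_right e, sub_sub_cancel, abs_of_nonneg (by linarith)])
    · exact .inr ⟨0, Nat.zero_le N, by rw [max_eq_left e, h.start]⟩)
  obtain ⟨j, hj, j1, j2⟩ := side _ m2 (by
    rcases le_total l (s0 + 2 * E) with e | e
    · exact .inr ⟨N, le_rfl, by rw [min_eq_left e, h.stop]⟩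
    · exact .inl (by rw [min_eq_right e, sub_add_cancel_left, abs_neg, abs_of_nonneg (by linarith)]))
  have d6 : dist (a i) (a j) ≤ 6 * E := by
    have k2 := dist_triangle4 (a i) (c (max 0 (s0 - 2 * E))) (c (min l (s0 + 2 * E))) (a j)
    rw [h.iso _ m1 _ m2, abs_sub_comm, abs_of_nonneg (by linarith), dist_comm (a i) (c _)] at k2
    linarith [min_le_right l (s0 + 2 * E), le_max_right 0 (s0 - 2 * E)]
  have key : ∀ k : ℕ, 6 * L * E + L ≤ 2 ^ k → E ≤ 2 * δ + L + δ * k := fun k hk => by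
    have p0 : 0 ≤ δ * k := by positivity
    obtain ⟨A, hA, hp⟩ := sg_sub h m1 m2 n1 n2
    obtain ⟨B1, b1⟩ := hg (c (min l (s0 + 2 * E))) (a j)
    obtain ⟨B2, b2⟩ := hg (a j) (c (max 0 (s0 - 2 * E)))
    obtain ⟨B3, b3⟩ := hg (c (max 0 (s0 - 2 * E))) (a i)
    obtain ⟨B4, b4⟩ := hg (a i) (a j)
    obtain ⟨w, hw | hw, e⟩ := slim_sg hδ hA b1 b2 hp
    · linarith [j2 _ b1 w hw]
    obtain ⟨w', hw' | hw', e'⟩ := slim_sg hδ b2 b3 b4 hw
    · linarith [i2 _ b3 w' hw', dist_triangle (c s0) w w']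
    have lg : ∀ i j, i ≤ j → j ≤ N → dist (a i) (a j) ≤ 6 * E → Sg (a i) (a j) B4 →
        ∃ m ≤ N, dist w' (a m) ≤ δ * k + L := fun i j e1 e2 e3 e4 => by
      have e5 : (j : ℝ) ≤ i + 2 ^ k := by
        have := mul_le_mul_of_nonneg_left e3 hL
        linarith [hq i j e1 e2]
      obtain ⟨m, -, m2, m3⟩ := logb hg hδ ha hL k i j e1 (by exact_mod_cast e5) _ e4 w' hw'
      exact ⟨m, m2.trans e2, m3⟩
    obtain ⟨m, m1, m2⟩ : ∃ m ≤ N, dist w' (a m) ≤ δ * k + L := (le_total i j).elim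
      (fun e => lg i j e hj d6 b4) fun e => lg j i e hi (dist_comm (a i) _ ▸ d6) b4.symm
    linarith [hall m m1, dist_triangle4 (c s0) w w' (a m)]
  have desc : ∀ n : ℕ, E ≤ 2 * δ + L + δ * (K + n : ℕ) → E ≤ 2 * δ + L + δ * K := fun n => by
    induction n with
    | zero => exact id
    | succ n ih =>
      refine fun e => ih (key _ (le_trans ?_ (hK _ (Nat.le_add_right K n))))
      have := mul_le_mul_of_nonneg_left e (by positivity : 0 ≤ 6 * L)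
      push_cast at this ⊢
      linarith
  obtain ⟨k, hk⟩ := pow_unbounded_of_one_lt (6 * L * E + L) (one_lt_two (α := ℝ))
  have fin := desc k ((key k hk.le).trans (by
    have : 0 ≤ δ * K := by positivity
    push_cast
    linarith))
  exact fun p hp => (hcl p hp).imp fun m hm => ⟨hm.1, hm.2.trans fin⟩

/-- **the Morse lemma** -/
theorem morse : ∃ D : ℝ, 0 ≤ D ∧ ∀ (a : ℕ → X) (N : ℕ), (∀ i, dist (a i) (a (i + 1)) ≤ L) →
    (∀ i j : ℕ, i ≤ j → j ≤ N → (j : ℝ) - i ≤ L * dist (a i) (a j) + L) →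
    ∀ A, Sg (a 0) (a N) A → (∀ p ∈ A, ∃ m ≤ N, dist p (a m) ≤ D) ∧
      ∀ m ≤ N, ∃ p ∈ A, dist p (a m) ≤ D := by
  obtain ⟨D, D0, hD⟩ := morse1 hg hδ h0 hL
  have P0 : 0 ≤ (L * (2 * D) + L) * L := by positivity
  refine ⟨D + (L * (2 * D) + L) * L, by positivity, fun a N ha hq A hA => ⟨fun p hp =>
    (hD a N ha hq A hA p hp).imp fun m hm => ⟨hm.1, by linarith [hm.2]⟩, fun m hm => ?_⟩⟩
  have k := hD a N ha hq A hA
  obtain ⟨c, l, h, rfl⟩ := hA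
  have cl : ∀ s : Set ℕ, s.Finite → IsClosed (⋃ i ∈ s, closedBall (a i) D) := fun s hs =>
    hs.isClosed_biUnion fun _ _ => isClosed_closedBall
  obtain ⟨p, hp, h1, h2⟩ := isPreconnected_closed_iff.1 (isPreconnected_Icc.image c (seg_cont h))
    _ _ (cl _ (finite_Iic m)) (cl _ (finite_Icc m N)) (fun p hp => by
      obtain ⟨i, i1, i2⟩ := k p hp
      exact (le_total i m).imp (fun e => mem_biUnion e i2) fun e => mem_biUnion ⟨e, i1⟩ i2)
    ⟨_, ⟨0, ⟨le_rfl, h.nonneg⟩, h.start⟩, mem_biUnion (Nat.zero_le m) (mem_closedBall_self D0)⟩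
    ⟨_, ⟨l, ⟨h.nonneg, le_rfl⟩, h.stop⟩, mem_biUnion ⟨hm, le_rfl⟩ (mem_closedBall_self D0)⟩
  obtain ⟨i, i1, i2⟩ := mem_iUnion₂.1 h1
  obtain ⟨j, j1, j2⟩ := mem_iUnion₂.1 h2
  have i3 : i ≤ m := i1
  have st : ∀ n : ℕ, dist (a i) (a (i + n)) ≤ n * L := fun n => by
    induction n with
    | zero => simp
    | succ n ih =>
      have := dist_triangle (a i) (a (i + n)) (a (i + n + 1))
      push_cast
      rw [← add_assoc]
      linarith [ha (i + n)]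
  obtain ⟨n, rfl⟩ := Nat.exists_eq_add_of_le i3
  have e1 := hq i j (i3.trans j1.1) j1.2
  have e2 : dist (a i) (a j) ≤ 2 * D := by
    linarith [dist_triangle_left (a i) (a j) p, mem_closedBall.1 i2, mem_closedBall.1 j2]
  have e3 : ((i + n : ℕ) : ℝ) ≤ j := by exact_mod_cast j1.1
  have e4 : (n : ℝ) ≤ L * (2 * D) + L := by
    push_cast at e3
    linarith [mul_le_mul_of_nonneg_left e2 hL]
  exact ⟨p, hp, by linarith [dist_triangle p (a i) (a (i + n)), mem_closedBall.1 i2, st n,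
    mul_le_mul_of_nonneg_right e4 hL]⟩

end morse

theorem disc (h : IsSeg c l x y) : ∃ (a : ℕ → X) (N : ℕ), a 0 = x ∧ a N = y ∧
    (∀ i, a i ∈ c '' Icc 0 l) ∧ (∀ i, dist (a i) (a (i + 1)) ≤ 1) ∧
    (∀ i j : ℕ, i ≤ j → j ≤ N → (j : ℝ) - i ≤ dist (a i) (a j) + 1) ∧
    ∀ p ∈ c '' Icc 0 l, ∃ i ≤ N, dist p (a i) ≤ 1 := by
  have m : ∀ i : ℕ, min (i : ℝ) l ∈ Icc 0 l := fun i =>
    ⟨le_min i.cast_nonneg h.nonneg, min_le_right _ _⟩
  refine ⟨fun i => c (min i l), ⌈l⌉₊, ?_, ?_, fun i => ⟨_, m i, rfl⟩, fun i => ?_,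
    fun i j h1 h2 => ?_, ?_⟩
  · simp only [Nat.cast_zero, min_eq_left h.nonneg, h.start]
  · simp only [min_eq_right (Nat.le_ceil l), h.stop]
  · refine (h.iso _ (m i) _ (m (i + 1))).trans_le ((abs_min_sub_min_le_max _ _ _ _).trans ?_)
    simp
  · have e : (j : ℝ) ≤ ⌈l⌉₊ := by exact_mod_cast h2
    have e2 : (j : ℝ) - 1 ≤ min (j : ℝ) l :=
      le_min (by linarith) (by linarith [Nat.ceil_lt_add_one h.nonneg])
    have e3 := neg_abs_le (min (i : ℝ) l - min (j : ℝ) l)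
    show _ ≤ dist (c _) (c _) + 1
    rw [h.iso _ (m i) _ (m j)]
    linarith [min_le_left (i : ℝ) l]
  · rintro _ ⟨s, hs, rfl⟩
    have e := Nat.floor_le hs.1
    refine ⟨⌊s⌋₊, (Nat.floor_le_ceil s).trans (Nat.ceil_mono hs.2), ?_⟩
    show dist (c _) (c _) ≤ 1
    rw [h.iso _ hs _ (m _), min_eq_left (e.trans hs.2), abs_of_nonneg (sub_nonneg.2 e)]
    linarith [Nat.lt_floor_add_one s]

/-- **slim triangles pull back under quasi-isometric embeddings into geodesic spaces** -/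
theorem slim_qi (hg : ∀ x y : Y, ∃ A, Sg x y A) (hδ : Slim Y δ) (h0 : 0 ≤ δ) (hL : 0 ≤ L)
    (f : X → Y) (h1 : ∀ x y, dist (f x) (f y) ≤ L * dist x y + L)
    (h2 : ∀ x y, dist x y ≤ L * dist (f x) (f y) + L) : ∃ δ', 0 ≤ δ' ∧ Slim X δ' := by
  obtain ⟨D, D0, hD⟩ := morse hg hδ h0 (L := 2 * L + 1) (by positivity)
  have key : ∀ {c : ℝ → X} {l x y}, IsSeg c l x y → ∃ A, Sg (f x) (f y) A ∧
      (∀ p ∈ A, ∃ q ∈ c '' Icc 0 l, dist p (f q) ≤ D) ∧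
      ∀ q ∈ c '' Icc 0 l, ∃ q', dist q q' ≤ 1 ∧ ∃ p ∈ A, dist p (f q') ≤ D := by
    intro c l x y h
    obtain ⟨a, N, rfl, rfl, a1, a2, a3, a4⟩ := disc h
    obtain ⟨A, hA⟩ := hg (f (a 0)) (f (a N))
    obtain ⟨k1, k2⟩ := hD (fun i => f (a i)) N (fun i => by
      linarith [h1 (a i) (a (i + 1)), mul_le_mul_of_nonneg_left (a2 i) hL]) (fun i j e e' => by
        have : 0 ≤ (L + 1) * dist (f (a i)) (f (a j)) := by positivity
        linarith [a3 i j e e', h2 (a i) (a j)]) A hA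
    refine ⟨A, hA, fun p hp => ?_, fun q hq => ?_⟩
    · obtain ⟨m, -, e⟩ := k1 p hp
      exact ⟨_, a1 m, e⟩
    · obtain ⟨i, i1, i2⟩ := a4 q hq
      exact ⟨_, i2, k2 i i1⟩
  refine ⟨1 + (L * (D + δ + D) + L), by positivity, fun x y z a b c l m n ha hb hc s hs => ?_⟩
  obtain ⟨A, a1, -, a3⟩ := key ha
  obtain ⟨B, b1, b2, -⟩ := key hb
  obtain ⟨C, c1, c2, -⟩ := key hc
  obtain ⟨q, q1, p, hp, q2⟩ := a3 _ ⟨s, hs, rfl⟩
  obtain ⟨w, hw, e⟩ := slim_sg hδ a1 b1 c1 hp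
  obtain ⟨u, hu, e'⟩ : ∃ u ∈ b '' Icc 0 m ∪ c '' Icc 0 n, dist w (f u) ≤ D :=
    hw.elim (fun hw => (b2 w hw).imp fun _ h => ⟨.inl h.1, h.2⟩)
      fun hw => (c2 w hw).imp fun _ h => ⟨.inr h.1, h.2⟩
  have e3 : dist (f q) (f u) ≤ D + δ + D := by
    linarith [dist_triangle4 (f q) p w (f u), dist_comm p (f q)]
  exact ⟨u, hu, by linarith [dist_triangle (a s) q u, h2 q u, mul_le_mul_of_nonneg_left e3 hL]⟩

end Vale.Agent.P186M44
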